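import Vale.Agent.Lib.P208.Main

namespace Vale.Agent.Results.P208.AnyNormedSpace

open Vale.Agent.Lib.P208

/-- In every nontrivial real normed space `E` (for instance `ℓ_2`): every doubling subset of `E`
embeds bi-Lipschitzly into some `ℝ^k` if and only if the dimension `k` and the distortion `D`
can be chosen depending only on the doubling constant. -/
theorem result (E : Type) [NormedAddCommGroup E] [NormedSpace ℝ E] [Nontrivial E] :
    (∀ X : Set E, (∃ lam : ℕ, DoublingWith X lam) → ∃ (k : ℕ) (D : ℝ), EmbedsWith X k D) ↔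
    ∀ lam : ℕ, ∃ (k : ℕ) (D : ℝ), ∀ X : Set E, DoublingWith X lam → EmbedsWith X k D :=
  ⟨fun H lam => uniform_of_qualitative H lam,
    fun H X hX => by
      obtain ⟨lam, hl⟩ := hX
      obtain ⟨k, D, h⟩ := H lam
      exact ⟨k, D, h X hl⟩⟩

end Vale.Agent.Results.P208.AnyNormedSpace
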