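import Vale.Agent.Lib.P208.Main

namespace Vale.Agent.Results.P208.FiniteReduction

open Vale.Agent.Lib.P208

/-- Every doubling subset of `ℓ_2` embeds bi-Lipschitzly into some `ℝ^k` if and only if, for each
`lam`, all finite subsets of `ℓ_2` with doubling constant at most `lam` embed into one `ℝ^k`
with one distortion bound `D`. -/
theorem result :
    (∀ X : Set (lp (fun _ : ℕ => ℝ) 2), (∃ lam : ℕ, DoublingWith X lam) →
        ∃ (k : ℕ) (D : ℝ), EmbedsWith X k D) ↔
    ∀ lam : ℕ, ∃ (k : ℕ) (D : ℝ), ∀ F : Finset (lp (fun _ : ℕ => ℝ) 2),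
        DoublingWith (F : Set (lp (fun _ : ℕ => ℝ) 2)) lam →
        EmbedsWith (F : Set (lp (fun _ : ℕ => ℝ) 2)) k D :=
  lang_plaut_finite_iff

end Vale.Agent.Results.P208.FiniteReduction
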