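import Vale.Agent.Lib.P208.Main

namespace Vale.Agent.Results.P208.QualIffQuant

open Vale.Agent.Lib.P208

/-- Every doubling subset of `ℓ_2` embeds bi-Lipschitzly into some `ℝ^k` if and only if the
dimension `k` and the distortion `D` can be chosen depending only on the doubling constant. -/
theorem result :
    (∀ X : Set (lp (fun _ : ℕ => ℝ) 2), (∃ lam : ℕ, DoublingWith X lam) →
        ∃ (k : ℕ) (D : ℝ), EmbedsWith X k D) ↔
    ∀ lam : ℕ, ∃ (k : ℕ) (D : ℝ), ∀ X : Set (lp (fun _ : ℕ => ℝ) 2),
        DoublingWith X lam → EmbedsWith X k D :=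
  lang_plaut_uniform_iff

end Vale.Agent.Results.P208.QualIffQuant
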